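import Mathlib

namespace Vale.Agent.Lib.P241

open Subgroup

variable {G : Type*} [Group G]

/-- `CyclicChain H s`: there is a chain `H = G_0 ≤ G_1 ≤ ⋯ ≤ G_s = G` of subgroups of `G`,
each one normal in the next, with every quotient `G_{i+1} / G_i` cyclic. -/
inductive CyclicChain : Subgroup G → ℕ → Prop
  | top : CyclicChain ⊤ 0
  | step {A B : Subgroup G} {s : ℕ} (hAB : A ≤ B) (hn : (A.subgroupOf B).Normal)
      (hc : IsCyclic (↥B ⧸ A.subgroupOf B)) (h : CyclicChain B s) : CyclicChain A (s + 1)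

/-- `ℓ(G,H)`: the least length of such a chain. -/
noncomputable def chainLen (H : Subgroup G) : ℕ := sInf {s | CyclicChain H s}

/-- `N` is a normal subgroup containing `H` with `G / N` elementary abelian of exponent `p`. -/
def IsElemQuot (p : ℕ) (H N : Subgroup G) : Prop :=
  N.Normal ∧ H ≤ N ∧ (∀ x y : G, x * y * x⁻¹ * y⁻¹ ∈ N) ∧ ∀ x : G, x ^ p ∈ N

/-- `e(G,H)`: the largest `k` such that `G` has an elementary abelian quotient of order `p ^ k`
in which `H` has trivial image. -/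
noncomputable def elemRank (p : ℕ) (H : Subgroup G) : ℕ :=
  sSup {k | ∃ N : Subgroup G, IsElemQuot p H N ∧ N.index = p ^ k}

lemma step_card {p : ℕ} (hp : 0 < p) {Q : Type*} [Group Q] [Finite Q] (π : G →* Q)
    (hQ : ∀ q : Q, q ^ p = 1) {A B : Subgroup G} (hn : (A.subgroupOf B).Normal)
    (hc : IsCyclic (↥B ⧸ A.subgroupOf B)) :
    Nat.card (B.map π) ≤ p * Nat.card (A.map π) := by
  obtain ⟨g0, hg0⟩ := hc.exists_generator
  obtain ⟨g, rfl⟩ := QuotientGroup.mk_surjective g0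
  let F : Fin p × ↥(A.map π) → Q := fun x => π g ^ (x.1 : ℕ) * x.2
  have hsub : ((B.map π : Subgroup Q) : Set Q) ⊆ Set.range F := by
    rintro _ ⟨b, hb, rfl⟩
    obtain ⟨k, hk⟩ := hg0 (QuotientGroup.mk ⟨b, hb⟩)
    have h1 : (g ^ k)⁻¹ * ⟨b, hb⟩ ∈ A.subgroupOf B := by
      rw [← QuotientGroup.eq]
      simpa using hk
    rw [Subgroup.mem_subgroupOf] at h1
    have hp' : (π g) ^ (p : ℤ) = 1 := by
      rw [zpow_natCast]; exact hQ _
    have h2 : (π g) ^ k = (π g) ^ (k % (p : ℤ)) := zpow_eq_zpow_emod k hp'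
    have hnn : 0 ≤ k % (p : ℤ) := Int.emod_nonneg _ (by positivity)
    have hlt : k % (p : ℤ) < p := Int.emod_lt_of_pos _ (by exact_mod_cast hp)
    refine ⟨(⟨(k % (p : ℤ)).toNat, by omega⟩, ⟨π (((g ^ k)⁻¹ * ⟨b, hb⟩ : ↥B) : G), ⟨_, h1, rfl⟩⟩), ?_⟩
    simp only [F]
    have h3 : (π g) ^ ((k % (p : ℤ)).toNat) = (π g) ^ k := by
      rw [h2, ← zpow_natCast, Int.toNat_of_nonneg hnn]
    rw [h3]
    simp
  have h1 : Nat.card (B.map π) ≤ Nat.card (Set.range F) :=
    Nat.card_mono (Set.toFinite _) hsub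
  have h2 : Nat.card (Set.range F) ≤ Nat.card (Fin p × ↥(A.map π)) := Finite.card_range_le F
  have h3 : Nat.card (Fin p × ↥(A.map π)) = p * Nat.card (A.map π) := by
    rw [Nat.card_prod, Nat.card_fin]
  omega

lemma chain_card {p : ℕ} (hp : 0 < p) {Q : Type*} [Group Q] [Finite Q] (π : G →* Q)
    (hQ : ∀ q : Q, q ^ p = 1) {H : Subgroup G} {s : ℕ} (h : CyclicChain H s) :
    Nat.card ((⊤ : Subgroup G).map π) ≤ p ^ s * Nat.card (H.map π) := by
  induction h with
  | top => simp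
  | @step A B s hAB hn hc h ih =>
    calc Nat.card ((⊤ : Subgroup G).map π) ≤ p ^ s * Nat.card (B.map π) := ih
      _ ≤ p ^ s * (p * Nat.card (A.map π)) := Nat.mul_le_mul_left _ (step_card hp π hQ hn hc)
      _ = p ^ (s + 1) * Nat.card (A.map π) := by ring

lemma index_le_of_chain [Finite G] {p : ℕ} (hp : 0 < p) {H N : Subgroup G}
    (hN : IsElemQuot p H N) {s : ℕ} (h : CyclicChain H s) : N.index ≤ p ^ s := by
  obtain ⟨hn, hHN, -, hpow⟩ := hN
  have hQ : ∀ q : G ⧸ N, q ^ p = 1 := by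
    intro q
    obtain ⟨x, rfl⟩ := QuotientGroup.mk_surjective q
    rw [← QuotientGroup.mk_pow, QuotientGroup.eq_one_iff]
    exact hpow x
  have h1 := chain_card hp (QuotientGroup.mk' N) hQ h
  have h2 : H.map (QuotientGroup.mk' N) = ⊥ := by
    rw [Subgroup.map_eq_bot_iff, QuotientGroup.ker_mk']
    exact hHN
  have h3 : (⊤ : Subgroup G).map (QuotientGroup.mk' N) = ⊤ :=
    Subgroup.map_top_of_surjective _ (QuotientGroup.mk'_surjective N)
  rw [h2, h3, Subgroup.card_top, Subgroup.card_bot, mul_one] at h1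
  rwa [Subgroup.index_eq_card]

lemma elemSet_nonempty (p : ℕ) (H : Subgroup G) :
    {k | ∃ N : Subgroup G, IsElemQuot p H N ∧ N.index = p ^ k}.Nonempty :=
  ⟨0, ⊤, ⟨inferInstance, le_top, fun _ _ => Subgroup.mem_top _, fun _ => Subgroup.mem_top _⟩,
    by simp⟩

lemma elemSet_le_of_chain [Finite G] {p : ℕ} (hp : 1 < p) {H : Subgroup G} {s : ℕ}
    (h : CyclicChain H s) {k : ℕ}
    (hk : k ∈ {k | ∃ N : Subgroup G, IsElemQuot p H N ∧ N.index = p ^ k}) : k ≤ s := by
  obtain ⟨N, hN, hi⟩ := hk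
  have := index_le_of_chain (by omega) hN h
  rw [hi] at this
  exact (Nat.pow_le_pow_iff_right hp).1 this

lemma elemRank_le_of_chain [Finite G] {p : ℕ} (hp : 1 < p) {H : Subgroup G} {s : ℕ}
    (h : CyclicChain H s) : elemRank p H ≤ s :=
  csSup_le (elemSet_nonempty p H) fun _ hk => elemSet_le_of_chain hp h hk

lemma le_elemRank_of_chain [Finite G] {p : ℕ} (hp : 1 < p) {H : Subgroup G} {s : ℕ}
    (h : CyclicChain H s) {N : Subgroup G} (hN : IsElemQuot p H N) {k : ℕ}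
    (hk : N.index = p ^ k) : k ≤ elemRank p H :=
  le_csSup ⟨s, fun _ hk => elemSet_le_of_chain hp h hk⟩ ⟨N, hN, hk⟩

/-- In a finite `p`-group, a subgroup of index `p` is normal. -/
lemma normal_of_index_p [Finite G] {p : ℕ} [hp : Fact p.Prime] (hG : IsPGroup p G)
    {M : Subgroup G} (hM : M.index = p) : M.Normal := by
  obtain ⟨m, hm⟩ := IsPGroup.iff_card.mp hG
  apply Subgroup.normal_of_index_eq_minFac_card
  rw [hM, hm]
  have hm0 : m ≠ 0 := by
    rintro rfl
    have h1 : M.index ∣ Nat.card G := Subgroup.index_dvd_card M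
    rw [hM, hm, pow_zero] at h1
    exact hp.out.one_lt.ne' (Nat.dvd_one.1 h1)
  exact (hp.out.pow_minFac hm0).symm

/-- one step up. -/
lemma exists_succ [Finite G] {p : ℕ} [hp : Fact p.Prime] (hG : IsPGroup p G)
    {K : Subgroup G} (hK : K ≠ ⊤) :
    ∃ M : Subgroup G, K ≤ M ∧ Nat.card M = p * Nat.card K := by
  obtain ⟨m, hm⟩ := IsPGroup.iff_card.mp hG
  obtain ⟨n, hn⟩ := IsPGroup.iff_card.mp (hG.to_subgroup K)
  have hlt : n < m := by
    by_contra hcon
    apply hK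
    apply Subgroup.eq_top_of_le_card
    rw [hm, hn]
    exact Nat.pow_le_pow_right hp.out.pos (by omega)
  obtain ⟨M, hM, hKM⟩ := Sylow.exists_subgroup_card_pow_succ (p := p) (n := n)
    (by rw [hm]; exact pow_dvd_pow p hlt) hn
  exact ⟨M, hKM, by rw [hM, hn, pow_succ]; ring⟩

lemma step_of_card [Finite G] {p : ℕ} [hp : Fact p.Prime] (hG : IsPGroup p G)
    {K M : Subgroup G} (hKM : K ≤ M) (hc : Nat.card M = p * Nat.card K) :
    ∃ _ : (K.subgroupOf M).Normal, IsCyclic (↥M ⧸ K.subgroupOf M) := by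
  have h1 : Nat.card (K.subgroupOf M) = Nat.card K :=
    Nat.card_congr (Subgroup.subgroupOfEquivOfLe hKM).toEquiv
  have h2 := Subgroup.card_mul_index (K.subgroupOf M)
  rw [h1, hc, mul_comm] at h2
  have hpos : 0 < Nat.card K := Nat.card_pos
  have h3 : (K.subgroupOf M).index = p := Nat.eq_of_mul_eq_mul_right hpos h2
  have hn : (K.subgroupOf M).Normal := normal_of_index_p (hG.to_subgroup M) h3
  refine ⟨hn, ?_⟩
  exact isCyclic_of_prime_card (p := p) (by rw [← Subgroup.index_eq_card, h3])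

/-- Chains exist in a finite `p`-group. -/
lemma exists_chain [Finite G] {p : ℕ} [hp : Fact p.Prime] (hG : IsPGroup p G)
    (H : Subgroup G) : ∃ s, CyclicChain H s := by
  induction' hn : Nat.card G - Nat.card H using Nat.strong_induction_on with n ih generalizing H
  by_cases hH : H = ⊤
  · exact ⟨0, hH ▸ CyclicChain.top⟩
  · obtain ⟨M, hHM, hM⟩ := exists_succ hG hH
    obtain ⟨hnorm, hcyc⟩ := step_of_card hG hHM hM
    have hpos : 0 < Nat.card H := Nat.card_pos
    have hle : Nat.card M ≤ Nat.card G := Subgroup.card_le_card_group M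
    have h2 : 2 ≤ p := hp.out.two_le
    have hlt : Nat.card H < Nat.card M := by rw [hM]; nlinarith
    obtain ⟨s, hs⟩ := ih (Nat.card G - Nat.card M) (by omega) M rfl
    exact ⟨s + 1, CyclicChain.step hHM hnorm hcyc hs⟩

lemma chainLen_mem [Finite G] {p : ℕ} [hp : Fact p.Prime] (hG : IsPGroup p G)
    (H : Subgroup G) : CyclicChain H (chainLen H) :=
  Nat.sInf_mem (s := {s | CyclicChain H s}) (exists_chain hG H)

lemma chainLen_le {H : Subgroup G} {s : ℕ} (h : CyclicChain H s) : chainLen H ≤ s :=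
  Nat.sInf_le (s := {s | CyclicChain H s}) h

/-- Every proper subgroup of a finite `p`-group lies in a subgroup of index `p`. -/
lemma exists_index_p [Finite G] {p : ℕ} [hp : Fact p.Prime] (hG : IsPGroup p G)
    {K : Subgroup G} (hK : K ≠ ⊤) : ∃ M : Subgroup G, K ≤ M ∧ M.index = p := by
  obtain ⟨m, hm⟩ := IsPGroup.iff_card.mp hG
  obtain ⟨n, hn⟩ := IsPGroup.iff_card.mp (hG.to_subgroup K)
  have hlt : n < m := by
    by_contra hcon
    apply hK
    apply Subgroup.eq_top_of_le_card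
    rw [hm, hn]
    exact Nat.pow_le_pow_right hp.out.pos (by omega)
  obtain ⟨M, hM, hKM⟩ := Sylow.exists_subgroup_card_pow_prime_le p (n := n) (m := m - 1)
    (by rw [hm]; exact pow_dvd_pow p (by omega)) K hn (by omega)
  refine ⟨M, hKM, ?_⟩
  have h2 := Subgroup.card_mul_index M
  rw [hM, hm] at h2
  have h3 : p ^ m = p ^ (m - 1) * p := by
    rw [← pow_succ]; congr 1; omega
  rw [h3] at h2
  exact Nat.eq_of_mul_eq_mul_left (pow_pos hp.out.pos _) h2

/-- A subgroup of index `p` containing `H` gives an elementary abelian quotient. -/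
lemma isElemQuot_of_index_p [Finite G] {p : ℕ} [hp : Fact p.Prime] (hG : IsPGroup p G)
    {H M : Subgroup G} (hHM : H ≤ M) (hM : M.index = p) : IsElemQuot p H M := by
  have hn : M.Normal := normal_of_index_p hG hM
  have hcard : Nat.card (G ⧸ M) = p := by rw [← Subgroup.index_eq_card, hM]
  have hcyc : IsCyclic (G ⧸ M) := isCyclic_of_prime_card (p := p) hcard
  refine ⟨hn, hHM, ?_, ?_⟩
  · intro x y
    rw [← QuotientGroup.eq_one_iff]
    have hcomm : (x : G ⧸ M) * (y : G ⧸ M) = (y : G ⧸ M) * (x : G ⧸ M) :=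
      (IsCyclic.isMulCommutative (α := G ⧸ M)).is_comm.comm _ _
    rw [QuotientGroup.mk_mul, QuotientGroup.mk_mul, QuotientGroup.mk_mul, QuotientGroup.mk_inv,
      QuotientGroup.mk_inv, hcomm]
    group
  · intro x
    rw [← QuotientGroup.eq_one_iff, QuotientGroup.mk_pow, ← hcard]
    exact pow_card_eq_one'

lemma IsElemQuot.inf {p : ℕ} {H M₁ M₂ : Subgroup G} (h₁ : IsElemQuot p H M₁)
    (h₂ : IsElemQuot p H M₂) : IsElemQuot p H (M₁ ⊓ M₂) := by
  obtain ⟨n1, a1, b1, c1⟩ := h₁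
  obtain ⟨n2, a2, b2, c2⟩ := h₂
  exact ⟨inferInstance, le_inf a1 a2, fun x y => ⟨b1 x y, b2 x y⟩, fun x => ⟨c1 x, c2 x⟩⟩

/-- Two distinct normal subgroups of prime index `p` meet in a subgroup of index `p ^ 2`. -/
lemma index_inf_of_ne {p : ℕ} (hp : p.Prime) {M₁ M₂ : Subgroup G} (hn2 : M₂.Normal)
    (h1 : M₁.index = p) (h2 : M₂.index = p) {x : G} (hx1 : x ∉ M₁) (hx2 : x ∈ M₂) :
    (M₁ ⊓ M₂).index = p ^ 2 := by
  have hsup : M₁ ⊔ M₂ = ⊤ := by
    have hle : M₁ ≤ M₁ ⊔ M₂ := le_sup_left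
    have h3 := Subgroup.relIndex_mul_index hle
    rw [h1] at h3
    have h4 : (M₁ ⊔ M₂).index ∣ p := ⟨_, by rw [mul_comm]; exact h3.symm⟩
    rcases (Nat.dvd_prime hp).1 h4 with h5 | h5
    · exact Subgroup.index_eq_one.1 h5
    · exfalso
      rw [h5] at h3
      have h6 : M₁.relIndex (M₁ ⊔ M₂) = 1 := by
        have := hp.pos
        nlinarith
      have h7 : M₁ ⊔ M₂ ≤ M₁ := Subgroup.relIndex_eq_one.1 h6
      exact hx1 (h7 (Subgroup.mem_sup_right hx2))
  have h3 := Subgroup.relIndex_mul_index (inf_le_left : M₁ ⊓ M₂ ≤ M₁)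
  rw [Subgroup.inf_relIndex_left, ← Subgroup.relIndex_sup_right, hsup, Subgroup.relIndex_top_right,
    h1, h2] at h3
  rw [← h3]; ring

lemma chain_zero {H : Subgroup G} (h : CyclicChain H 0) : H = ⊤ := by
  cases h; rfl

lemma exists_gen {A B : Subgroup G} (hn : (A.subgroupOf B).Normal)
    (hc : IsCyclic (↥B ⧸ A.subgroupOf B)) : ∃ g ∈ B, B ≤ A ⊔ zpowers g := by
  obtain ⟨g0, hg0⟩ := hc.exists_generator
  obtain ⟨g, rfl⟩ := QuotientGroup.mk_surjective g0
  refine ⟨g, g.2, ?_⟩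
  intro b hb
  obtain ⟨k, hk⟩ := hg0 (QuotientGroup.mk ⟨b, hb⟩)
  have h1 : (g ^ k)⁻¹ * ⟨b, hb⟩ ∈ A.subgroupOf B := by
    rw [← QuotientGroup.eq]
    simpa using hk
  rw [Subgroup.mem_subgroupOf] at h1
  have h2 : b = (g : G) ^ k * (((g ^ k)⁻¹ * ⟨b, hb⟩ : ↥B) : G) := by simp
  rw [h2]
  exact mul_mem (Subgroup.mem_sup_right (zpow_mem (mem_zpowers _) _)) (Subgroup.mem_sup_left h1)

lemma isCyclic_of_gen {A B : Subgroup G} (hAB : A ≤ B) (hn : (A.subgroupOf B).Normal) {g : G}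
    (hg : g ∈ B) (h : B ≤ A ⊔ zpowers g) : IsCyclic (↥B ⧸ A.subgroupOf B) := by
  rw [isCyclic_iff_exists_zpowers_eq_top]
  refine ⟨QuotientGroup.mk' _ ⟨g, hg⟩, ?_⟩
  rw [eq_top_iff]
  rintro q -
  obtain ⟨⟨b, hb⟩, rfl⟩ := QuotientGroup.mk_surjective q
  set S : Subgroup ↥B := (zpowers (QuotientGroup.mk' (A.subgroupOf B) ⟨g, hg⟩)).comap
    (QuotientGroup.mk' (A.subgroupOf B)) with hS
  have h1 : A ⊔ zpowers g ≤ S.map B.subtype := by
    rw [sup_le_iff]
    constructor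
    · intro a ha
      refine ⟨⟨a, hAB ha⟩, ?_, rfl⟩
      show QuotientGroup.mk' _ _ ∈ zpowers _
      have h0 : QuotientGroup.mk' (A.subgroupOf B) ⟨a, hAB ha⟩ = 1 := by
        rw [QuotientGroup.mk'_apply, QuotientGroup.eq_one_iff, Subgroup.mem_subgroupOf]
        exact ha
      rw [h0]; exact one_mem _
    · rw [zpowers_le]
      exact ⟨⟨g, hg⟩, mem_zpowers _, rfl⟩
  obtain ⟨⟨b', hb'⟩, hb'S, hbb⟩ := h1 (h hb)
  have hbb' : b' = b := hbb
  subst hbb'
  exact hb'S

lemma chain_one {H : Subgroup G} (h : CyclicChain H 1) : ∃ g : G, H ⊔ zpowers g = ⊤ := by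
  cases h with
  | @step A B s hAB hn hc h =>
    have hB := chain_zero h
    subst hB
    obtain ⟨g, -, hg⟩ := exists_gen hn hc
    exact ⟨g, top_le_iff.1 hg⟩

lemma chain_one_of_normal {H : Subgroup G} (hH : H.Normal) {g : G} (hg : H ⊔ zpowers g = ⊤) :
    CyclicChain H 1 :=
  CyclicChain.step (B := ⊤) le_top inferInstance
    (isCyclic_of_gen le_top inferInstance (Subgroup.mem_top g) hg.ge) CyclicChain.top

lemma exists_elemQuot_one [Finite G] {p : ℕ} [hp : Fact p.Prime] (hG : IsPGroup p G)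
    {H : Subgroup G} (hH : H ≠ ⊤) : ∃ N : Subgroup G, IsElemQuot p H N ∧ N.index = p ^ 1 := by
  obtain ⟨M, hHM, hM⟩ := exists_index_p hG hH
  exact ⟨M, isElemQuot_of_index_p hG hHM hM, by rw [hM, pow_one]⟩

lemma exists_elemQuot_two [Finite G] {p : ℕ} [hp : Fact p.Prime] (hG : IsPGroup p G)
    {H : Subgroup G} (hH : H ≠ ⊤) (hgen : ∀ g : G, H ⊔ zpowers g ≠ ⊤) :
    ∃ N : Subgroup G, IsElemQuot p H N ∧ N.index = p ^ 2 := by
  obtain ⟨M₁, hHM₁, hM₁⟩ := exists_index_p hG hH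
  have hne : M₁ ≠ ⊤ := by
    rintro rfl
    rw [Subgroup.index_top] at hM₁
    exact hp.out.one_lt.ne hM₁
  obtain ⟨x, hx⟩ : ∃ x : G, x ∉ M₁ := by
    by_contra hcon
    push Not at hcon
    exact hne (eq_top_iff.2 fun y _ => hcon y)
  obtain ⟨M₂, hHM₂, hM₂⟩ := exists_index_p hG (hgen x)
  have hx2 : x ∈ M₂ := hHM₂ (Subgroup.mem_sup_right (mem_zpowers x))
  have hH2 : H ≤ M₂ := le_sup_left.trans hHM₂
  exact ⟨M₁ ⊓ M₂, (isElemQuot_of_index_p hG hHM₁ hM₁).inf (isElemQuot_of_index_p hG hH2 hM₂),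
    index_inf_of_ne hp.out (normal_of_index_p hG hM₂) hM₁ hM₂ hx hx2⟩

/-- The purely algebraic inequality `e(G,H) ≤ ℓ(G,H)`. -/
theorem elemRank_le_chainLen [Finite G] {p : ℕ} [hp : Fact p.Prime] (hG : IsPGroup p G)
    (H : Subgroup G) : elemRank p H ≤ chainLen H :=
  elemRank_le_of_chain hp.out.one_lt (chainLen_mem hG H)

/-- For normal `H` with `ℓ(G,H) ≤ 2` the two bounds coincide. -/
theorem elemRank_eq_chainLen_of_normal [Finite G] {p : ℕ} [hp : Fact p.Prime]
    (hG : IsPGroup p G) {H : Subgroup G} (hH : H.Normal) (h2 : chainLen H ≤ 2) :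
    elemRank p H = chainLen H := by
  have hmem := chainLen_mem hG H
  apply le_antisymm (elemRank_le_chainLen hG H)
  have htop : 1 ≤ chainLen H → H ≠ ⊤ := by
    rintro h1 rfl
    have := chainLen_le (CyclicChain.top (G := G))
    omega
  have hcases : chainLen H = 0 ∨ chainLen H = 1 ∨ chainLen H = 2 := by omega
  rcases hcases with h | h | h
  · rw [h]; exact Nat.zero_le _
  · obtain ⟨N, hN, hi⟩ := exists_elemQuot_one hG (htop (by omega))
    rw [h]
    exact le_elemRank_of_chain hp.out.one_lt hmem hN hi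
  · have hgen : ∀ g : G, H ⊔ zpowers g ≠ ⊤ := by
      intro g hg
      have := chainLen_le (chain_one_of_normal hH hg)
      omega
    obtain ⟨N, hN, hi⟩ := exists_elemQuot_two hG (htop (by omega)) hgen
    rw [h]
    exact le_elemRank_of_chain hp.out.one_lt hmem hN hi

lemma elemRank_mem [Finite G] {p : ℕ} [hp : Fact p.Prime] (hG : IsPGroup p G)
    (H : Subgroup G) : ∃ N : Subgroup G, IsElemQuot p H N ∧ N.index = p ^ elemRank p H :=
  Nat.sSup_mem (s := {k | ∃ N : Subgroup G, IsElemQuot p H N ∧ N.index = p ^ k})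
    (elemSet_nonempty p H)
    ⟨chainLen H, fun _ hk => elemSet_le_of_chain hp.out.one_lt (chainLen_mem hG H) hk⟩

lemma normal_of_chain_one {H : Subgroup G} (h : CyclicChain H 1) : H.Normal := by
  cases h with
  | @step A B s hAB hn hc h =>
    have hB := chain_zero h
    subst hB
    constructor
    intro a ha g
    have h1 := hn.conj_mem ⟨a, Subgroup.mem_top a⟩ (Subgroup.mem_subgroupOf.2 ha)
      ⟨g, Subgroup.mem_top g⟩
    exact Subgroup.mem_subgroupOf.1 h1

/-- If `G` is generated by `H` and one element then `e(G,H) ≤ 1`. -/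
lemma elemRank_le_one_of_gen [Finite G] {p : ℕ} [hp : Fact p.Prime]
    {H : Subgroup G} {g : G} (hg : H ⊔ zpowers g = ⊤) : elemRank p H ≤ 1 := by
  apply csSup_le (elemSet_nonempty p H)
  rintro k ⟨N, hN, hi⟩
  have hN' : IsElemQuot p N N := ⟨hN.1, le_rfl, hN.2.2.1, hN.2.2.2⟩
  have htop : N ⊔ zpowers g = ⊤ := top_le_iff.1 (hg ▸ sup_le_sup_right hN.2.1 _)
  have h1 := index_le_of_chain hp.out.pos hN' (chain_one_of_normal hN.1 htop)
  rw [hi] at h1
  exact (Nat.pow_le_pow_iff_right hp.out.one_lt).1 h1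

/-- In the range `ℓ(G,H) ≤ 2`: exact description of the pairs with `e(G,H) = ℓ(G,H)`. -/
theorem elemRank_eq_chainLen_iff [Finite G] {p : ℕ} [hp : Fact p.Prime]
    (hG : IsPGroup p G) {H : Subgroup G} (h2 : chainLen H ≤ 2) :
    elemRank p H = chainLen H ↔ (H.Normal ∨ ∀ g : G, H ⊔ zpowers g ≠ ⊤) := by
  have hmem := chainLen_mem hG H
  constructor
  · intro he
    by_contra hcon
    push Not at hcon
    obtain ⟨hnn, g, hg⟩ := hcon
    have h1 : elemRank p H ≤ 1 := elemRank_le_one_of_gen hg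
    have hcases : chainLen H = 0 ∨ chainLen H = 1 := by omega
    rcases hcases with h | h
    · rw [h] at hmem
      apply hnn
      rw [chain_zero hmem]
      infer_instance
    · rw [h] at hmem
      exact hnn (normal_of_chain_one hmem)
  · rintro (hH | hgen)
    · exact elemRank_eq_chainLen_of_normal hG hH h2
    · apply le_antisymm (elemRank_le_chainLen hG H)
      have htop : H ≠ ⊤ := by
        rintro rfl
        exact hgen 1 (by simp)
      obtain ⟨N, hN, hi⟩ := exists_elemQuot_two hG htop hgen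
      exact h2.trans (le_elemRank_of_chain hp.out.one_lt hmem hN hi)

/-- A chain `H ⊴ K ⊴ G` with cyclic quotients gives `ℓ(G,H) ≤ 2`. -/
lemma chainLen_le_two {H K : Subgroup G} (hHK : H ≤ K) (hn : (H.subgroupOf K).Normal)
    (hK : K.Normal) (hc : IsCyclic (↥K ⧸ H.subgroupOf K)) (hc' : IsCyclic (G ⧸ K)) :
    chainLen H ≤ 2 := by
  obtain ⟨g0, hg0⟩ := hc'.exists_generator
  obtain ⟨g, rfl⟩ := QuotientGroup.mk_surjective g0
  have htop : K ⊔ zpowers g = ⊤ := by
    rw [eq_top_iff]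
    rintro b -
    obtain ⟨k, hk⟩ := hg0 (QuotientGroup.mk b)
    have h1 : (g ^ k)⁻¹ * b ∈ K := by
      rw [← QuotientGroup.eq]
      simpa using hk
    have h2 : b = g ^ k * ((g ^ k)⁻¹ * b) := by group
    rw [h2]
    exact mul_mem (Subgroup.mem_sup_right (zpow_mem (mem_zpowers _) _)) (Subgroup.mem_sup_left h1)
  exact chainLen_le (CyclicChain.step hHK hn hc (chain_one_of_normal hK htop))

end Vale.Agent.Lib.P241
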