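import Vale.Agent.Lib.P241.Basic

namespace Vale.Agent.Lib.P241

open Subgroup

variable {G : Type*} [Group G]

/-- If `g ^ q = 1` for all `g`, every chain from `H` of length `s` has `|G : H| ≤ q ^ s`. -/
lemma index_le_exp_pow [Finite G] {q : ℕ} (hq : 0 < q) (hexp : ∀ g : G, g ^ q = 1)
    {H : Subgroup G} {s : ℕ} (h : CyclicChain H s) : H.index ≤ q ^ s := by
  have h1 := chain_card hq (MonoidHom.id G) hexp h
  rw [Subgroup.map_id, Subgroup.map_id, Subgroup.card_top, ← Subgroup.card_mul_index H,
    mul_comm] at h1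
  exact Nat.le_of_mul_le_mul_right h1 Nat.card_pos

/-- In a finite `p`-group there is a chain from `H` of length `log_p |G : H|`. -/
lemma exists_chain_index [Finite G] {p : ℕ} [hp : Fact p.Prime] (hG : IsPGroup p G)
    (H : Subgroup G) : ∃ s, CyclicChain H s ∧ H.index = p ^ s := by
  induction' hn : Nat.card G - Nat.card H using Nat.strong_induction_on with n ih generalizing H
  by_cases hH : H = ⊤
  · exact ⟨0, hH ▸ CyclicChain.top, by rw [hH]; simp⟩
  · obtain ⟨M, hHM, hM⟩ := exists_succ hG hH
    obtain ⟨hnorm, hcyc⟩ := step_of_card hG hHM hM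
    have hpos : 0 < Nat.card H := Nat.card_pos
    have hle : Nat.card M ≤ Nat.card G := Subgroup.card_le_card_group M
    have h2 : 2 ≤ p := hp.out.two_le
    have hlt : Nat.card H < Nat.card M := by rw [hM]; nlinarith
    obtain ⟨s, hs, hi⟩ := ih (Nat.card G - Nat.card M) (by omega) M rfl
    refine ⟨s + 1, CyclicChain.step hHM hnorm hcyc hs, ?_⟩
    have e1 := Subgroup.card_mul_index H
    have e2 := Subgroup.card_mul_index M
    rw [hM, hi] at e2
    have e3 : Nat.card H * H.index = Nat.card H * p ^ (s + 1) := by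
      rw [e1, ← e2, pow_succ]; ring
    exact Nat.eq_of_mul_eq_mul_left hpos e3

lemma pow_chainLen_le_index [Finite G] {p : ℕ} [hp : Fact p.Prime] (hG : IsPGroup p G)
    (H : Subgroup G) : p ^ chainLen H ≤ H.index := by
  obtain ⟨s, hs, hi⟩ := exists_chain_index hG H
  rw [hi]
  exact Nat.pow_le_pow_right hp.out.pos (chainLen_le hs)

lemma isPGroup_of_exp {p : ℕ} (hexp : ∀ g : G, g ^ p = 1) : IsPGroup p G :=
  fun g => ⟨1, by rw [pow_one]; exact hexp g⟩

/-- In a group of exponent `p`: `ℓ(G,H) = log_p |G : H|`. -/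
theorem pow_chainLen_eq_index [Finite G] {p : ℕ} [hp : Fact p.Prime] (hexp : ∀ g : G, g ^ p = 1)
    (H : Subgroup G) : p ^ chainLen H = H.index :=
  le_antisymm (pow_chainLen_le_index (isPGroup_of_exp hexp) H)
    (index_le_exp_pow hp.out.pos hexp (chainLen_mem (isPGroup_of_exp hexp) H))

/-- In a group of exponent `p`: `e(G,H) = ℓ(G,H)` iff `H` contains all commutators. -/
theorem elemRank_eq_chainLen_iff_exp [Finite G] {p : ℕ} [hp : Fact p.Prime]
    (hexp : ∀ g : G, g ^ p = 1) (H : Subgroup G) :
    elemRank p H = chainLen H ↔ ∀ x y : G, x * y * x⁻¹ * y⁻¹ ∈ H := by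
  have hG := isPGroup_of_exp hexp
  have hidx := pow_chainLen_eq_index hexp H
  constructor
  · intro he
    obtain ⟨N, hN, hi⟩ := elemRank_mem hG H
    rw [he, hidx] at hi
    have h1 := Subgroup.relIndex_mul_index hN.2.1
    rw [hi] at h1
    have hpos : 0 < H.index := Nat.pos_of_ne_zero Subgroup.index_ne_zero_of_finite
    have h2 : H.relIndex N = 1 := by
      have : H.relIndex N * H.index = 1 * H.index := by rw [h1, one_mul]
      exact Nat.eq_of_mul_eq_mul_right hpos this
    have h3 : N ≤ H := Subgroup.relIndex_eq_one.1 h2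
    intro x y
    exact h3 (hN.2.2.1 x y)
  · intro hc
    have hn : H.Normal := by
      constructor
      intro h hh g
      have h1 : g * h * g⁻¹ = (g * h * g⁻¹ * h⁻¹) * h := by group
      rw [h1]
      exact mul_mem (hc g h) hh
    have hE : IsElemQuot p H H := ⟨hn, le_rfl, hc, fun x => by rw [hexp x]; exact one_mem _⟩
    exact le_antisymm (elemRank_le_chainLen hG H)
      (le_elemRank_of_chain hp.out.one_lt (chainLen_mem hG H) hE hidx.symm)

end Vale.Agent.Lib.P241
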