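import Vale.Agent.Lib.P241.ExpP

namespace Vale.Agent.Lib.P241

open Subgroup

/-- The Heisenberg group modulo `p`: triples `(a, b, c)` of residues modulo `p` with the product
`(a, b, c) (a', b', c') = (a + a', b + b', c + c' + a b')`
(upper unitriangular `3 × 3` matrices over `ZMod p`). -/
@[ext] structure Heis (p : ℕ) where
  a : ZMod p
  b : ZMod p
  c : ZMod p

namespace Heis

variable {p : ℕ}

instance : Mul (Heis p) := ⟨fun x y => ⟨x.a + y.a, x.b + y.b, x.c + y.c + x.a * y.b⟩⟩
instance : One (Heis p) := ⟨⟨0, 0, 0⟩⟩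
instance : Inv (Heis p) := ⟨fun x => ⟨-x.a, -x.b, -x.c + x.a * x.b⟩⟩

@[simp] lemma mul_a (x y : Heis p) : (x * y).a = x.a + y.a := rfl
@[simp] lemma mul_b (x y : Heis p) : (x * y).b = x.b + y.b := rfl
@[simp] lemma mul_c (x y : Heis p) : (x * y).c = x.c + y.c + x.a * y.b := rfl
@[simp] lemma one_a : (1 : Heis p).a = 0 := rfl
@[simp] lemma one_b : (1 : Heis p).b = 0 := rfl
@[simp] lemma one_c : (1 : Heis p).c = 0 := rfl
@[simp] lemma inv_a (x : Heis p) : (x⁻¹).a = -x.a := rfl
@[simp] lemma inv_b (x : Heis p) : (x⁻¹).b = -x.b := rfl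
@[simp] lemma inv_c (x : Heis p) : (x⁻¹).c = -x.c + x.a * x.b := rfl

instance : Group (Heis p) :=
  Group.ofLeftAxioms
    (fun x y z => by ext <;> simp <;> ring)
    (fun x => by ext <;> simp)
    (fun x => by ext <;> simp)

lemma pow_a (x : Heis p) (n : ℕ) : (x ^ n).a = n * x.a := by
  induction n with
  | zero => simp
  | succ n ih => rw [pow_succ, mul_a, ih]; push_cast; ring

lemma pow_b (x : Heis p) (n : ℕ) : (x ^ n).b = n * x.b := by
  induction n with
  | zero => simp
  | succ n ih => rw [pow_succ, mul_b, ih]; push_cast; ring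

lemma two_mul_pow_c (x : Heis p) (n : ℕ) :
    2 * (x ^ n).c = 2 * n * x.c + n * (n - 1) * (x.a * x.b) := by
  induction n with
  | zero => simp
  | succ n ih =>
    rw [pow_succ, mul_c, pow_a, mul_add, mul_add, ih]; push_cast; ring

/-- For an odd prime `p` the Heisenberg group modulo `p` has exponent `p`. -/
lemma pow_p [hp : Fact p.Prime] (hodd : p ≠ 2) (x : Heis p) : x ^ p = 1 := by
  have h2 : (2 : ZMod p) ≠ 0 := by
    intro h
    have h3 : ((2 : ℕ) : ZMod p) = 0 := by exact_mod_cast h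
    rw [ZMod.natCast_eq_zero_iff] at h3
    exact hodd ((Nat.prime_dvd_prime_iff_eq hp.out Nat.prime_two).1 h3)
  ext
  · rw [pow_a]; simp
  · rw [pow_b]; simp
  · have h := two_mul_pow_c x p
    simp only [CharP.cast_eq_zero, mul_zero, zero_mul, add_zero] at h
    rcases mul_eq_zero.1 h with h | h
    · exact absurd h h2
    · simpa using h

/-- the underlying triples -/
def equivProd (p : ℕ) : Heis p ≃ ZMod p × ZMod p × ZMod p where
  toFun x := (x.a, x.b, x.c)
  invFun t := ⟨t.1, t.2.1, t.2.2⟩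
  left_inv _ := rfl
  right_inv _ := rfl

instance [NeZero p] : Finite (Heis p) := Finite.of_equiv _ (equivProd p).symm

lemma card_eq [NeZero p] : Nat.card (Heis p) = p ^ 3 := by
  rw [Nat.card_congr (equivProd p), Nat.card_prod, Nat.card_prod, Nat.card_zmod]
  ring

end Heis

/-- For an odd prime `p` and the trivial subgroup of the Heisenberg group modulo `p`:
`ℓ = 3` and `e = 2`. -/
theorem heis_values {p : ℕ} [hp : Fact p.Prime] (hodd : p ≠ 2) :
    chainLen (⊥ : Subgroup (Heis p)) = 3 ∧ elemRank p (⊥ : Subgroup (Heis p)) = 2 := by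
  have : NeZero p := ⟨hp.out.ne_zero⟩
  have hexp : ∀ g : Heis p, g ^ p = 1 := Heis.pow_p hodd
  have hG := isPGroup_of_exp hexp
  have h1 := pow_chainLen_eq_index hexp (⊥ : Subgroup (Heis p))
  rw [Subgroup.index_bot, Heis.card_eq] at h1
  have hl : chainLen (⊥ : Subgroup (Heis p)) = 3 := Nat.pow_right_injective hp.out.two_le h1
  refine ⟨hl, ?_⟩
  have hle := elemRank_le_chainLen hG (⊥ : Subgroup (Heis p))
  have hne : elemRank p (⊥ : Subgroup (Heis p)) ≠ chainLen (⊥ : Subgroup (Heis p)) := by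
    intro he
    have hc := (elemRank_eq_chainLen_iff_exp hexp _).1 he ⟨1, 0, 0⟩ ⟨0, 1, 0⟩
    rw [Subgroup.mem_bot] at hc
    have h3 := congrArg Heis.c hc
    simp at h3
  have hcard : p < Nat.card (Heis p) := by
    rw [Heis.card_eq]
    calc p = p ^ 1 := (pow_one p).symm
      _ < p ^ 3 := Nat.pow_lt_pow_right hp.out.one_lt (by norm_num)
  have hgen : ∀ g : Heis p, (⊥ : Subgroup (Heis p)) ⊔ zpowers g ≠ ⊤ := by
    intro g hg
    rw [bot_sup_eq] at hg
    have h4 : Nat.card (zpowers g) = Nat.card (Heis p) := by rw [hg, Subgroup.card_top]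
    rw [Nat.card_zpowers] at h4
    have h5 : orderOf g ≤ p := orderOf_le_of_pow_eq_one hp.out.pos (hexp g)
    omega
  have htop : (⊥ : Subgroup (Heis p)) ≠ ⊤ := by
    intro h
    exact hgen 1 (by rw [h]; simp)
  obtain ⟨N, hN, hi⟩ := exists_elemQuot_two hG htop hgen
  have h2 := le_elemRank_of_chain hp.out.one_lt (chainLen_mem hG _) hN hi
  omega

end Vale.Agent.Lib.P241
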